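import Vale.Agent.Lib.P097.Defs
import Vale.Agent.Lib.P097.Forward
import Vale.Agent.Lib.P097.Backward

open Complex Set

namespace Vale.Agent.Results.P097.LinearIntegral

open Vale.Agent.P097

/-- Near-boundary Birkhoff theorem for first integrals which are linear in the velocity.
`Ω` is a table with boundary curve `γ`.  The billiard map has, on some grazing strip
`{0 < δ < η}`, a first integral of the form `F(x, v) = ⟨N(x), v⟩`, with `N : ∂Ω → ℝ²` an arbitrary
function which is not identically zero, if and only if `Ω` is an ellipse. -/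
theorem result (Ω : Set ℂ) (L : ℝ) (γ : ℝ → ℂ) (hΩ : IsTable Ω L γ) :
    (∃ (N : ℂ → ℂ) (η : ℝ), 0 < η ∧ (∃ s, N (γ s) ≠ 0) ∧
      ∀ s δ s' δ', δ < η → δ' < η → Bounce γ s δ s' δ' →
        inner ℝ (N (γ s)) (velocity γ s δ) = inner ℝ (N (γ s')) (velocity γ s' δ')) ↔
      IsEllipse Ω := by
  constructor
  · rintro ⟨N, η, hη, hN, H⟩
    exact forward hΩ hη hN H
  · intro hE
    exact backward hΩ hE

end Vale.Agent.Results.P097.LinearIntegral
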