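import Vale.Agent.Lib.P097.CoordProof
import Vale.Agent.Lib.P097.CoordEllipse

/-!
# P097: tables with a first integral `a(s) cos δ + b(s) sin δ` near the grazing end are the ellipses
-/

open Vale.Agent.P097Coord

/-- Let `Ω` be a table as in the problem, with boundary curve `s ↦ (x s, y s)`.  Suppose that on a
grazing strip `0 < δ < η` the billiard map `T` preserves a function
`F(s, δ) = a(s) cos δ + b(s) sin δ`, where `a` and `b` are arbitrary functions of the boundary point
(no continuity is assumed), not both identically zero, i.e. `F(T(s, δ)) = F(s, δ)` as soon as both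
angles are less than `η`.  Then `Ω` is an ellipse; and conversely. -/
theorem Vale.Agent.Results.P097.TrigFirstIntegral.result
    (Ω : Set (ℝ × ℝ)) (L : ℝ) (x y : ℝ → ℝ) (h : Table Ω L x y) :
    (∃ (a b : ℝ → ℝ) (η : ℝ), Function.Periodic a L ∧ Function.Periodic b L ∧
      (∃ s, a s ≠ 0 ∨ b s ≠ 0) ∧ 0 < η ∧
      ∀ s δ s' δ', δ < η → δ' < η → BilliardMap x y s δ s' δ' →
        a s' * Real.cos δ' + b s' * Real.sin δ' = a s * Real.cos δ + b s * Real.sin δ) ↔
    Ellipse Ω := by
  rw [h.integral_iff, ← ellipse_iff]
  constructor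
  · rintro ⟨N, η, hη, hN, H⟩
    exact Vale.Agent.P097.forward h.isTable hη hN H
  · intro hE
    exact Vale.Agent.P097.backward h.isTable hE
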